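import Vale.Agent.P363.Stmt

/-! Top-level definitions for the disproof of Q1 by an ATOM with 5 electrons (scheme C2).
Scaled units: nuclear charge 1, electron repulsion multiplied by `lam = 1/Z`. -/

namespace Vale.Agent.P363.R.Top

open MeasureTheory Filter Topology
open Vale.Agent.P363.Stmt
open scoped ContDiff ENNReal ComplexConjugate

noncomputable section

/-- electron repulsion -/
def rep {N : ℕ} (x : Conf N) : ℝ := ∑ i, ∑ k ∈ Finset.Ioi i, 1 / ‖x i - x k‖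

/-- scaled Coulomb potential of the atom with `N` electrons. -/
def pot {N : ℕ} (lam : ℝ) (x : Conf N) : ℝ := (∑ i, -(1 / ‖x i‖)) + lam * rep x

/-- the five lowest hydrogen orbitals: `0 = 1s`, `1 = 2s`, `2,3,4 = 2p₀, 2p₁, 2p₂`. -/
def orb : Fin 5 → R3 → ℝ
  | 0 => fun x => Real.exp (-‖x‖) / Real.sqrt Real.pi
  | 1 => fun x => (2 - ‖x‖) * Real.exp (-‖x‖ / 2) / (4 * Real.sqrt (2 * Real.pi))
  | 2 => fun x => x 0 * Real.exp (-‖x‖ / 2) / (4 * Real.sqrt (2 * Real.pi))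
  | 3 => fun x => x 1 * Real.exp (-‖x‖ / 2) / (4 * Real.sqrt (2 * Real.pi))
  | 4 => fun x => x 2 * Real.exp (-‖x‖ / 2) / (4 * Real.sqrt (2 * Real.pi))

/-- hydrogen energies of these orbitals -/
def orbE (i : Fin 5) : ℝ := if i = 0 then -1 / 2 else -1 / 8

/-- limit density (`lam → 0`) of the 5-electron ground state of type `z`:
occupations `1s : 2`, `2s : α`, `2p₀, 2p₁ : β`, `2p₂ : 1`, with `α + 2 β = 2`. -/
def n0 (α β : ℝ) (x : R3) : ℝ :=
  2 * orb 0 x ^ 2 + α * orb 1 x ^ 2 + β * (orb 2 x ^ 2 + orb 3 x ^ 2) + orb 4 x ^ 2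

/-- `L²` inner product of states (conjugate linear in the first argument). -/
def inn {N : ℕ} (Φ Ψ : ElectronState N) : ℂ := ∑ s, ∫ x, conj (Φ.amp s x) * Ψ.amp s x

/-- squared `L²` distance of states -/
def distSq {N : ℕ} (Φ Ψ : ElectronState N) : ℝ := ∑ s, ∫ x, ‖Φ.amp s x - Ψ.amp s x‖ ^ 2

/-- Dyson amplitude `⟨Φ, Ψ(x,σ,·)⟩`. -/
def dyson {n : ℕ} (Φ : ElectronState n) (Ψ : ElectronState (n + 1)) (σ : Fin 2) (x : R3) : ℂ :=
  ∑ s, ∫ y : Conf n, conj (Φ.amp s y) * Ψ.amp (Fin.cons σ s) (Fin.cons x y)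

/-- Behaviour of the density near far points of the plane `x₂ = 0`: it vanishes quadratically up
to errors that are small with respect to the scale `m k`.  (Input of `KS.ks_contradiction`.) -/
def FarKink (n : R3 → ℝ) : Prop :=
  ∃ (p : ℕ → R3) (m e : ℕ → ℝ) (c C : ℝ), 0 < c ∧ (∀ k, p k 2 = 0) ∧
    Tendsto (fun k => ‖p k‖) atTop atTop ∧ (∀ k, 0 < m k) ∧ Tendsto e atTop (𝓝 0) ∧
    (∀ k, ∀ᵐ y, y ∈ Metric.ball (p k) 2 → c * m k * (y 2) ^ 2 ≤ n y) ∧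
    ∀ k, ∀ t ∈ Set.Ioc (0 : ℝ) 2,
      ∫ y in Metric.ball (p k) 2 ∩ {y | |y 2| < t}, n y ≤ m k * (C * t ^ 3 + e k)

/-- Closeness of a five-electron state to the noninteracting limit, as used by the Kohn-Sham
side (`ε` small). -/
structure Close (α β ε : ℝ) (Ψ : ElectronState 5) : Prop where
  norm : normSq Ψ = 1
  en : energy (pot 0) Ψ ≤ -11 / 8 + ε
  dens_int : Integrable (fun x => density Ψ x - n0 α β x)
  dens : ∫ x, |density Ψ x - n0 α β x| ≤ ε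
  shell : ∀ᵐ x, 1 ≤ ‖x‖ → ‖x‖ ≤ 20 → |Real.sqrt (density Ψ x) - Real.sqrt (n0 α β x)| ≤ ε

/-- Output of B4 (perturbation theory and symmetry) = input of B5 (interacting side at infinity):
`Φ` is the ground state of the ion (4 electrons), `Ψ` a ground state of the atom (5 electrons) of
type `z`, spin up. -/
structure AtomPair (κ lam ε : ℝ) (Φ : ElectronState 4) (Ψ : ElectronState 5) : Prop where
  gsΦ : IsGroundState (pot lam) Φ
  gsΨ : IsGroundState (pot lam) Ψ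
  E4 : |energy (pot lam) Φ + 5 / 4| ≤ ε
  E5 : |energy (pot lam) Ψ + 11 / 8| ≤ ε
  gap : ∃ g > 0, ∀ χ : ElectronState 4, inn Φ χ = 0 →
    (energy (pot lam) Φ + g) * normSq χ ≤ energy (pot lam) χ
  radial : ∃ G : ℝ → ℂ, Measurable G ∧ ∀ᵐ x, dyson Φ Ψ 0 x = G ‖x‖ * (x 2 : ℂ)
  zero : ∀ᵐ x, dyson Φ Ψ 1 x = 0
  close : ∫ x, ‖dyson Φ Ψ 0 x - ((κ * orb 4 x : ℝ) : ℂ)‖ ^ 2 ≤ ε
  dyson_mem : MemLp (dyson Φ Ψ 0) 2

end

end Vale.Agent.P363.R.Top
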