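import Vale.Agent.P363.R.Top.Defs

/-! Top-level STATEMENTS (to be proved by the blocks B4, B5, B6+B7+B8, B9), and the assembly. -/

namespace Vale.Agent.P363.R.Top

open MeasureTheory Filter Topology
open Vale.Agent.P363.Stmt
open scoped ContDiff ENNReal ComplexConjugate

noncomputable section

/-- B4 (owner helper983; inputs A2, B2, B3): perturbation theory + symmetry. -/
theorem b4 : ∃ (α β κ : ℝ) (Ψ0 : ElectronState 5), 0 < α ∧ α < 2 ∧ 0 < β ∧ β < 2 ∧ α + 2 * β = 2 ∧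
    0 < κ ∧ IsGroundState (pot 0) Ψ0 ∧ energy (pot 0) Ψ0 = -11 / 8 ∧ (∀ᵐ x, density Ψ0 x = n0 α β x) ∧
    ∀ ε > 0, ∃ lam0 > 0, ∀ lam, 0 < lam → lam < lam0 →
      ∃ (Φ : ElectronState 4) (Ψ : ElectronState 5), AtomPair κ lam ε Φ Ψ ∧ distSq Ψ Ψ0 ≤ ε ∧
        energy (pot 0) Ψ ≤ -11 / 8 + ε := sorry

/-- B5 (owners helper545, helper924): the density at infinity. -/
theorem b5_far (κ : ℝ) (hκ : 0 < κ) : ∃ ε > 0, ∀ lam, 0 < lam → lam < ε →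
    ∀ (Φ : ElectronState 4) (Ψ : ElectronState 5), AtomPair κ lam ε Φ Ψ →
      FarKink (density Ψ) := sorry

/-- B5.7 (owner helper924): uniform closeness of `√n` on shells. -/
theorem b5_shell (Ψ0 : ElectronState 5) (h0 : IsGroundState (pot 0) Ψ0)
    (hE0 : energy (pot 0) Ψ0 = -11 / 8) : ∀ ε > 0, ∃ δ > 0, ∀ lam, 0 < lam → lam < δ →
    ∀ Ψ : ElectronState 5, IsGroundState (pot lam) Ψ → |energy (pot lam) Ψ + 11 / 8| ≤ δ →
      distSq Ψ Ψ0 ≤ δ →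
      ∀ᵐ x, 1 ≤ ‖x‖ → ‖x‖ ≤ 20 →
        |Real.sqrt (density Ψ x) - Real.sqrt (density Ψ0 x)| ≤ ε := sorry

/-- L¹ continuity of the density (free, easy). -/
theorem dens_close (Ψ Ψ0 : ElectronState 5) (h : normSq Ψ = 1) (h0 : normSq Ψ0 = 1) :
    Integrable (fun x => density Ψ x - density Ψ0 x) ∧
      ∫ x, |density Ψ x - density Ψ0 x| ≤ 10 * Real.sqrt (distSq Ψ Ψ0) := sorry

/-- Kohn-Sham side (B6 helper574, B7 free, B8 helper827). -/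
theorem ks_side (α β : ℝ) (hα : 0 < α) (hα2 : α < 2) (hβ : 0 < β) (hβ2 : β < 2)
    (hs : α + 2 * β = 2) : ∃ ε > 0, ∀ Ψ : ElectronState 5, Close α β ε Ψ →
      FarKink (density Ψ) → ¬ NonintEnsembleRepresentable 4 (density Ψ) := sorry

/-- B9a: scaling, ground states. -/
theorem scale_ground (Z : ℕ) (hZ : 1 ≤ Z) (Ψ : ElectronState 5)
    (h : IsGroundState (pot (1 / (Z : ℝ))) Ψ) :
    ∃ Ψ' : ElectronState 5, IsGroundState (coulombPotential (fun _ : Fin 1 => Z) (fun _ => 0)) Ψ' ∧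
      ∀ᵐ x, density Ψ' x = (Z : ℝ) ^ 3 * density Ψ ((Z : ℝ) • x) := sorry

/-- B9a: scaling, representability. -/
theorem scale_repr (c : ℝ) (hc : 0 < c) (ρ ρ' : R3 → ℝ) (h : ∀ᵐ x, ρ' x = c ^ 3 * ρ (c • x))
    (hr : NonintEnsembleRepresentable 4 ρ') : NonintEnsembleRepresentable 4 ρ := sorry

/-- The interacting side. -/
theorem interacting_side : ∃ α β : ℝ, 0 < α ∧ α < 2 ∧ 0 < β ∧ β < 2 ∧ α + 2 * β = 2 ∧
    ∀ ε > 0, ∃ lam0 > 0, ∀ lam, 0 < lam → lam < lam0 → ∃ Ψ : ElectronState 5,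
      IsGroundState (pot lam) Ψ ∧ Close α β ε Ψ ∧ FarKink (density Ψ) := by
  obtain ⟨α, β, κ, Ψ0, hα, hα2, hβ, hβ2, hs, hκ, h0, hE0, hd0, H⟩ := b4
  refine ⟨α, β, hα, hα2, hβ, hβ2, hs, fun ε hε => ?_⟩
  obtain ⟨ε1, hε1, H1⟩ := b5_far κ hκ
  obtain ⟨δ, hδ, H2⟩ := b5_shell Ψ0 h0 hE0 ε hε
  -- choose the tolerance
  set t : ℝ := min (min ε1 δ) (min ε ((ε / 10) ^ 2)) with ht
  have ht0 : 0 < t := by positivity
  obtain ⟨lam1, hlam1, H3⟩ := H t ht0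
  refine ⟨min lam1 t, lt_min hlam1 ht0, fun lam hl hl' => ?_⟩
  obtain ⟨Φ, Ψ, hP, hdist, hen⟩ := H3 lam hl (hl'.trans_le (min_le_left _ _))
  have hlt : lam < t := hl'.trans_le (min_le_right _ _)
  have ht1 : t ≤ ε1 := (min_le_left _ _).trans (min_le_left _ _)
  have ht2 : t ≤ δ := (min_le_left _ _).trans (min_le_right _ _)
  have ht3 : t ≤ ε := (min_le_right _ _).trans (min_le_left _ _)
  have ht4 : t ≤ (ε / 10) ^ 2 := (min_le_right _ _).trans (min_le_right _ _)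
  have hP1 : AtomPair κ lam ε1 Φ Ψ :=
    { gsΦ := hP.gsΦ, gsΨ := hP.gsΨ, E4 := hP.E4.trans ht1, E5 := hP.E5.trans ht1,
      gap := hP.gap, radial := hP.radial, zero := hP.zero, close := hP.close.trans ht1,
      dyson_mem := hP.dyson_mem }
  obtain ⟨hi, hd⟩ := dens_close Ψ Ψ0 hP.gsΨ.1 h0.1
  refine ⟨Ψ, hP.gsΨ, ⟨hP.gsΨ.1, hen.trans (by linarith), ?_, ?_, ?_⟩,
    H1 lam hl (hlt.trans_le ht1) Φ Ψ hP1⟩
  · refine hi.congr ?_
    filter_upwards [hd0] with x hx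
    rw [hx]
  · have e : ∫ x, |density Ψ x - n0 α β x| = ∫ x, |density Ψ x - density Ψ0 x| := by
      refine integral_congr_ae ?_
      filter_upwards [hd0] with x hx
      rw [hx]
    rw [e]
    refine hd.trans ?_
    have : Real.sqrt (distSq Ψ Ψ0) ≤ ε / 10 := by
      rw [show ε / 10 = Real.sqrt ((ε / 10) ^ 2) from (Real.sqrt_sq (by positivity)).symm]
      exact Real.sqrt_le_sqrt (hdist.trans ht4)
    linarith
  · have := H2 lam hl (hlt.trans_le ht2) Ψ hP.gsΨ (hP.E5.trans ht2) (hdist.trans ht2)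
    filter_upwards [this, hd0] with x hx hx0 h1 h2
    rw [← hx0]
    exact hx h1 h2

/-- Final theorem: an atom with five electrons. -/
theorem final : ∃ (Z : ℕ), 1 ≤ Z ∧ ∃ Ψ : ElectronState 5,
    IsGroundState (coulombPotential (fun _ : Fin 1 => Z) (fun _ => 0)) Ψ ∧
      ¬ NonintEnsembleRepresentable 4 (density Ψ) := by
  obtain ⟨α, β, hα, hα2, hβ, hβ2, hs, H⟩ := interacting_side
  obtain ⟨ε, hε, K⟩ := ks_side α β hα hα2 hβ hβ2 hs
  obtain ⟨lam0, hl0, H1⟩ := H ε hε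
  obtain ⟨Z, hZ⟩ := exists_nat_gt (1 / lam0)
  have hZpos : (0 : ℝ) < Z := lt_trans (by positivity) hZ
  have hZ1 : 1 ≤ Z := by
    have : 0 < Z := by exact_mod_cast hZpos
    omega
  obtain ⟨Ψ, hΨ, hC, hF⟩ := H1 (1 / (Z : ℝ)) (by positivity) (by
    rw [div_lt_iff₀ hZpos]
    rw [div_lt_iff₀ hl0] at hZ
    linarith)
  obtain ⟨Ψ', hg, hd⟩ := scale_ground Z hZ1 Ψ hΨ
  exact ⟨Z, hZ1, Ψ', hg, fun hr => K Ψ hC hF (scale_repr Z hZpos _ _ hd hr)⟩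

theorem final' : ¬ CoulombDensitiesRepresentable 4 := by
  obtain ⟨Z, hZ, Ψ, hΨ, h⟩ := final
  intro H
  exact h (H 1 le_rfl (fun _ => Z) (fun _ => hZ) (fun _ => 0)
    (fun a b _ => Subsingleton.elim a b) Ψ hΨ)

end

end Vale.Agent.P363.R.Top
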